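import Mathlib

/-!
# P123 (Crouzeix's conjecture): polynomials of degree at most one

For every bounded operator `A` on a nonzero complex Hilbert (indeed inner product) space and every
polynomial `P(z) = b₀ + b₁ z`, `‖P(A)‖ ≤ 2 sup_{z ∈ W(A)} |P(z)|`.
-/

namespace Vale.Agent.Results.P123.DegreeOne

open Complex

variable {H : Type*} [NormedAddCommGroup H] [InnerProductSpace ℂ H]

theorem quad_bound (T : H →L[ℂ] H) (M : ℝ)
    (hM : ∀ x : H, ‖x‖ = 1 → ‖inner ℂ x (T x)‖ ≤ M) (x : H) :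
    ‖inner ℂ (T x) x‖ ≤ M * ‖x‖ ^ 2 := by
  by_cases hx : x = 0
  · simp [hx]
  have hn : 0 < ‖x‖ := norm_pos_iff.2 hx
  set u : H := ((‖x‖⁻¹ : ℝ) : ℂ) • x with hu
  have hu1 : ‖u‖ = 1 := by
    rw [hu, norm_smul, Complex.norm_real, norm_inv, norm_norm, inv_mul_cancel₀ hn.ne']
  have hxu : x = ((‖x‖ : ℝ) : ℂ) • u := by
    rw [hu, smul_smul, ← Complex.ofReal_mul, mul_inv_cancel₀ hn.ne']
    simp
  have h1 := hM u hu1
  rw [norm_inner_symm]
  have h2 : inner ℂ x (T x) = (((‖x‖ : ℝ) : ℂ) * ((‖x‖ : ℝ) : ℂ)) * inner ℂ u (T u) := by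
    conv_lhs => rw [hxu]
    rw [map_smul, inner_smul_left, inner_smul_right, Complex.conj_ofReal]
    ring
  rw [h2, norm_mul, norm_mul, Complex.norm_real, norm_norm]
  nlinarith [mul_pos hn hn]

theorem polar_bound (T : H →L[ℂ] H) (M : ℝ)
    (hM : ∀ x : H, ‖x‖ = 1 → ‖inner ℂ x (T x)‖ ≤ M) (x y : H) :
    ‖inner ℂ (T y) x‖ ≤ M * (‖x‖ ^ 2 + ‖y‖ ^ 2) := by
  have hp := inner_map_polarization (T : H →ₗ[ℂ] H) x y
  simp only [ContinuousLinearMap.coe_coe] at hp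
  have q := quad_bound T M hM
  have p1 := parallelogram_law_with_norm ℂ x y
  have p2 := parallelogram_law_with_norm ℂ x (Complex.I • y)
  have hI : ‖Complex.I • y‖ = ‖y‖ := by rw [norm_smul, Complex.norm_I, one_mul]
  rw [hI] at p2
  rw [hp, norm_div]
  have h4 : ‖(4 : ℂ)‖ = 4 := by norm_num
  rw [h4, div_le_iff₀ (by norm_num)]
  have t1 : ‖inner ℂ (T (x + y)) (x + y) - inner ℂ (T (x - y)) (x - y)
      + Complex.I * inner ℂ (T (x + Complex.I • y)) (x + Complex.I • y)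
      - Complex.I * inner ℂ (T (x - Complex.I • y)) (x - Complex.I • y)‖
      ≤ ‖inner ℂ (T (x + y)) (x + y)‖ + ‖inner ℂ (T (x - y)) (x - y)‖
        + ‖inner ℂ (T (x + Complex.I • y)) (x + Complex.I • y)‖
        + ‖inner ℂ (T (x - Complex.I • y)) (x - Complex.I • y)‖ := by
    refine le_trans (norm_sub_le _ _) ?_
    refine add_le_add (le_trans (norm_add_le _ _) (add_le_add (norm_sub_le _ _) ?_)) ?_
    · rw [norm_mul, Complex.norm_I, one_mul]
    · rw [norm_mul, Complex.norm_I, one_mul]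
  refine le_trans t1 ?_
  have := q (x + y)
  have := q (x - y)
  have := q (x + Complex.I • y)
  have := q (x - Complex.I • y)
  have e1 : M * ‖x + y‖ ^ 2 + M * ‖x - y‖ ^ 2 = M * (2 * (‖x‖ ^ 2 + ‖y‖ ^ 2)) := by
    rw [← mul_add, p1]
  have e2 : M * ‖x + Complex.I • y‖ ^ 2 + M * ‖x - Complex.I • y‖ ^ 2
      = M * (2 * (‖x‖ ^ 2 + ‖y‖ ^ 2)) := by
    rw [← mul_add, p2]
  linarith

theorem norm_le_two (T : H →L[ℂ] H) (M : ℝ) (hM0 : 0 ≤ M)
    (hM : ∀ x : H, ‖x‖ = 1 → ‖inner ℂ x (T x)‖ ≤ M) : ‖T‖ ≤ 2 * M := by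
  refine ContinuousLinearMap.opNorm_le_bound _ (by positivity) ?_
  intro y
  by_cases hT : T y = 0
  · rw [hT, norm_zero]; positivity
  have hy : y ≠ 0 := by
    rintro rfl
    exact hT (map_zero T)
  have ht : 0 < ‖y‖ := norm_pos_iff.2 hy
  have hn : 0 < ‖T y‖ := norm_pos_iff.2 hT
  set c : ℝ := ‖y‖ / ‖T y‖ with hc
  have hc0 : 0 < c := div_pos ht hn
  have h := polar_bound T M hM ((c : ℂ) • T y) y
  have h1 : ‖(c : ℂ) • T y‖ = ‖y‖ := by
    rw [norm_smul, Complex.norm_real, Real.norm_of_nonneg hc0.le, hc, div_mul_cancel₀ _ hn.ne']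
  have h2 : ‖inner ℂ (T y) ((c : ℂ) • T y)‖ = ‖y‖ * ‖T y‖ := by
    rw [inner_smul_right, norm_mul, Complex.norm_real, Real.norm_of_nonneg hc0.le,
      inner_self_eq_norm_sq_to_K, norm_pow]
    simp only [Complex.coe_algebraMap, Complex.norm_real, norm_norm]
    rw [hc]
    field_simp
  rw [h1, h2] at h
  have h3 : ‖y‖ * ‖T y‖ ≤ ‖y‖ * (2 * M * ‖y‖) := by nlinarith
  exact le_of_mul_le_mul_left h3 ht

theorem result [Nontrivial H] (A : H →L[ℂ] H) (b₀ b₁ : ℂ) (M : ℝ)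
    (hM : ∀ x : H, ‖x‖ = 1 → ‖b₀ + b₁ * inner ℂ x (A x)‖ ≤ M) :
    ‖b₀ • ContinuousLinearMap.id ℂ H + b₁ • A‖ ≤ 2 * M := by
  have hM' : ∀ x : H, ‖x‖ = 1 →
      ‖inner ℂ x ((b₀ • ContinuousLinearMap.id ℂ H + b₁ • A) x)‖ ≤ M := by
    intro x hx
    have : inner ℂ x ((b₀ • ContinuousLinearMap.id ℂ H + b₁ • A) x)
        = b₀ + b₁ * inner ℂ x (A x) := by
      simp only [_root_.add_apply, _root_.smul_apply,
        ContinuousLinearMap.id_apply, inner_add_right, inner_smul_right,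
        inner_self_eq_norm_sq_to_K, hx]
      simp
    rw [this]
    exact hM x hx
  obtain ⟨x, hx⟩ := exists_norm_eq H (zero_le_one)
  have hM0 : 0 ≤ M := le_trans (norm_nonneg _) (hM x hx)
  exact norm_le_two _ M hM0 hM'

end Vale.Agent.Results.P123.DegreeOne
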